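import Vale.Agent.P014U.Dr.Cy
import Vale.Agent.P014T.Nr.Cor

/-! # P014U, block NR: from the norm relations to the raw Euler system -/

set_option linter.all false

open NumberField Matrix Finset

noncomputable section

namespace Vale.Agent.P014U.Nr

open Vale.Agent.P022 (Qb GQ)
open Vale.Agent.P022E.GW (Ov Fb)
open Vale.Agent.P004F (M2)
open Vale.Agent.P004F.Es (Fr ex_fr)
open Dr P014T.Ur

export Vale.Agent.P014T.Nr (rr rr_ap rp cr_z1 Bd Cl cl cl_eq cl_sur ch cj_mul sg sg_cl sg_mul sg_fix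
  comm_Ha sg_comm tv_fr fr_tv ex_tv nrm_ind nrm_tow nrm_swap cr_cl ex_co)

variable [Pp] {N : ℕ} {ρ : GQ →* M2 (Zn N)} {S : Finset ℕ} {a : ℕ → ℤ} {Ad : ℕ → Prop}
  {z : ℕ → GQ → Fin 2 → Zn N} {n0 : ℕ}

/-- **the raw Euler system** -/
theorem raw (h0 : n0 ≠ 0) (gr : Gr ρ S a Ad) (co : ∀ M, Ad M → Co (Hm (M * n0)) ρ (z M))
    (two : ∀ M, Ad M → ∃ T, Tv (Hm (M * n0)) (Hm (M * pp * n0)) T ∧
      ∑ t ∈ T, sg ρ t (cl ρ (z (M * pp))) = cl ρ (z M))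
    (odd : ∀ M l P φ, Ad M → Ov l P → l ∉ S → ¬ l ∣ M → Fb l P φ →
      ∃ T, Tv (Hm (M * n0)) (Hm (M * l * n0)) T ∧ l • ∑ t ∈ T, sg ρ t (cl ρ (z (M * l))) =
        l • cl ρ (z M) - a l • sg ρ φ⁻¹ (cl ρ (z M)) + sg ρ (φ⁻¹ ^ 2) (cl ρ (z M))) :
    ∃ y, Raw ρ S a Ad y ∧ ∀ M, Ad M → Cr (Hm M) (Hm (M * n0)) (fun _ => 1) (rr ρ) (z M) (y M) := by
  have nz : ∀ M, Ad M → M * n0 ≠ 0 := fun M h => mul_ne_zero (gr.pos M h) h0
  have le : ∀ M k, Hm (M * k) ≤ Hm M := fun M k => Hm_le (dvd_mul_right M k)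
  choose! y y1 y2 using fun M h => ex_co (co M h) (Hm_open (nz M h)) (le M n0)
  have key : ∀ M k, Ad M → Ad (M * k) → ∀ T', Tv (Hm (M * n0)) (Hm (M * k * n0)) T' →
      ∃ T U, Tv (Hm M) (Hm (M * k)) T ∧ cl ρ (y M) = ∑ u ∈ U, sg ρ u (cl ρ (z M)) ∧
        cl ρ (∑ s ∈ T, cj ρ s (y (M * k))) = ∑ u ∈ U, sg ρ u (∑ t ∈ T', sg ρ t (cl ρ (z (M * k)))) := by
    intro M k h h' T' t'
    obtain ⟨T, t⟩ := ex_tv (Hm_open (gr.pos _ h')) (le M k)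
    obtain ⟨U, u⟩ := ex_tv (Hm_open (nz M h)) (le M n0)
    obtain ⟨U', u'⟩ := ex_tv (Hm_open (nz _ h')) (le (M * k) n0)
    refine ⟨T, U, t, cr_cl (y2 M h) (Ha_le (nz M h)) u, ?_⟩
    simp only [map_sum (cl ρ), ← sg_cl, cr_cl (y2 _ h') (Ha_le (nz _ h')) u']
    exact nrm_swap (fun g => sg_fix (co _ h').coc (Ha_le (nz _ h'))) (le M k) (le _ n0) (le M n0)
      (Hm_le ⟨k, by ring⟩) t u' u t'
  refine ⟨y, ⟨y1, fun M h => ?_, fun M l P φ h o hS hl fb => ?_⟩, y2⟩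
  · obtain ⟨T', t', e⟩ := two M h
    obtain ⟨T, U, t, e1, e2⟩ := key M pp h (gr.ad2 M h) T' t'
    exact ⟨T, t, (cl_eq ρ).1 (by rw [e2, e, e1])⟩
  · obtain ⟨T', t', e⟩ := odd M l P φ h o hS hl fb
    obtain ⟨T, U, t, e1, e2⟩ := key M l h (gr.adl M l h o.1 hS hl) T' t'
    have c := sg_comm fun g hg => sg_fix (co M h).coc (Ha_le (nz M h)) (Ha_le (nz M h) hg)
    refine ⟨T, t, (cl_eq ρ).1 ?_⟩
    rw [map_nsmul, e2, map_add, map_sub, map_nsmul, map_zsmul, ← sg_cl, ← sg_cl, e1, ← sum_nsmul]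
    simp only [← map_nsmul (sg ρ _), e]
    simp only [map_add, map_sub, map_nsmul, map_zsmul, map_sum, sum_nsmul, sum_zsmul,
      sum_add_distrib, sum_sub_distrib, c φ⁻¹, c (φ⁻¹ ^ 2)]

variable {A : Type} [CommRing A] (ι : Zn N →+* A) (Ψ : GQ →* A) {H K : Subgroup GQ}
  {x y : GQ → Fin 2 → Zn N}

/-- the action after the change of coefficients -/
abbrev mp (ρ : GQ →* M2 (Zn N)) : GQ →* M2 A := ι.mapMatrix.toMonoidHom.comp ρ

theorem tw_aa (g : GQ) (v : Fin 2 → A) : tw Ψ (rr (mp ι ρ)) g v = aa ρ ι Ψ g *ᵥ v :=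
  (smul_mulVec (Ψ g) ((ρ g).map ι) v).symm

theorem io_vec (g : GQ) (v : Fin 2 → Zn N) : ι ∘ (ρ g *ᵥ v) = rr (mp ι ρ) g (ι ∘ v) :=
  funext fun i => RingHom.map_mulVec ι _ _ i

/-- the explicit corestriction is a corestriction -/
theorem cor_cr0 (o : IsOpen (H : Set GQ)) (hΨ : ∀ g ∈ H, Ψ g = 1) (c : Z1 H (rr ρ) y) :
    Cr ⊤ H Ψ (rr (mp ι ρ)) (fun g => ι ∘ y g) (cor ρ ι Ψ H y) := by
  classical
  have := P022K.G2.cpt
  have := H.quotient_finite_of_isOpen o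
  have := Fintype.ofFinite (GQ ⧸ H)
  have m : ∀ u : GQ, (u : GQ ⧸ H).out⁻¹ * u ∈ H := fun u => QuotientGroup.eq.1 (Quotient.out_eq _)
  refine ⟨univ.image fun q : GQ ⧸ H => q.out,
    fun u => rr (mp ι ρ) (u : GQ ⧸ H).out (ι ∘ y ((u : GQ ⧸ H).out⁻¹ * u)),
    ⟨le_top, fun _ _ => trivial, fun g _ => ⟨(g : GQ ⧸ H).out, ⟨mem_image_of_mem _ (mem_univ _),
      by simpa using inv_mem (m g)⟩, ?_⟩, fun g _ h _ => map_mul Ψ g h, hΨ⟩, fun u _ h hh => ?_,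
    fun g _ => ?_⟩
  · rintro _ ⟨a, b⟩
    obtain ⟨q, -, rfl⟩ := mem_image.1 a
    rw [QuotientGroup.eq.2 b, QuotientGroup.out_eq']
  · simp only
    rw [QuotientGroup.mk_mul_of_mem u hh, ← mul_assoc, c _ (m u) h hh, show ∀ a b, ι ∘ (a + b : Fin 2 → _) = ι ∘ a + ι ∘ b from
      fun a b => funext fun i => map_add ι _ _, map_add, rr_ap ρ,
      io_vec, ← (rp _ ⊤).mul _ trivial _ trivial, mul_inv_cancel_left]
  · rw [cor, finsum_eq_sum_of_fintype, cr,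
      sum_image (g := fun q : GQ ⧸ H => q.out) fun _ _ _ _ h => Quotient.out_injective h,
      ← Equiv.sum_comp (MulAction.toPerm g)]
    refine sum_congr rfl fun q _ => ?_
    have e : ((g * q.out : GQ) : GQ ⧸ H) = g • q := MulAction.Quotient.mk_smul_out H g q
    have e2 := hΨ _ (m (g * q.out))
    simp only [MulAction.toPerm_apply, inv_smul_smul, QuotientGroup.out_eq', inv_mul_cancel,
      c.one (rp ρ H).one, ← tw_aa, ← e, mul_assoc]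
    rw [← mul_inv_cancel_left ((g * q.out : GQ) : GQ ⧸ H).out (g * q.out), map_mul Ψ, e2, mul_one,
      mul_inv_cancel_left]
    simp [tw]

/-- the total corestriction -/
theorem cor_cr (o : IsOpen (H : Set GQ)) (hΨ : ∀ g ∈ H, Ψ g = 1)
    (c : Cr H K (fun _ => 1) (rr ρ) x y) :
    Cr ⊤ K Ψ (rr (mp ι ρ)) (fun g => ι ∘ x g) (cor ρ ι Ψ H y) :=
  (c.map (r' := rr (mp ι ρ)) (ψ' := fun _ => 1) (ι.toAddMonoidHom.compLeft (Fin 2))
    (fun g _ v => io_vec ι g v) (by simp) (by simp) (by simp)).trans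
    (cor_cr0 ι Ψ o hΨ (cr_z1 ρ c)) (rp _ ⊤)

end Vale.Agent.P014U.Nr
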