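import Vale.Agent.P014T.Nr.Kat
import Vale.Agent.P014U.Nr.Cor

/-! # P014U, block NR: the raw Euler system of the classes of symbols -/

set_option autoImplicit false
set_option linter.all false

open CongruenceSubgroup Finset NumberField
open scoped MatrixGroups Matrix

noncomputable section

namespace Vale.Agent.P014U.Nr

open Vale.Agent.P022 H231.L3 P027M.M P027M.M.Dp
open Vale.Agent.P022E.GW (Ov Fb)
open Dr (Hm Ha Tv Ha_le Hm_le Hm_open Zn Co Gr Raw root_cong)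
open P014T.Ur (Cr)

export Vale.Agent.P014T.Nr (Au pA pS gA Lev Un Xi Ok Ru vL ZL Cx Hk DET D2 DL det d2 dl fb_cyc hm_iff tv_cop
  sum_sw sum_eu odd_of Cg)

variable [Pp] {X : Mdl} {Ξ : Type} [AddCommGroup Ξ] [DistribMulAction Au Ξ] {m k : ℕ}
  {Cu : AddSubgroup Ξ} {ρ : GQ →* P004F.M2 (Zn k)} {Z : Subgroup SL(2, ℤ) → Ξ → FF → FF → Cl ρ} {ξ : Ξ}
  {N c d n0 D : ℕ} {S : Finset ℕ} {a : ℕ → ℤ} {Ad : ℕ → Prop} {ι : Type} {s : Finset ι} {w : ι → ℤ}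
  {A : ι → M2} {z : ℕ → GQ → Fin 2 → Zn k}

/-- **the raw Euler system** of the classes `∑ w i • ZL (A i)` of level `M n0 D` -/
theorem kat (R : Ru X m Cu (sg ρ) Z) (gr : Gr ρ S a Ad)
    (x : ∀ i ∈ s, Cx X m Cu ξ N c d (n0 * D) (A i) ∧ ¬ (pp : ℤ) ∣ (A i).det) (oD : D.Coprime pp)
    (pd : ∀ M, Ad M → pp ∣ M * n0 * D) (pc : pp.Coprime (c * d)) (L0 : 0 < n0 * D) (hS : ∀ l : ℕ, l.Prime → l ∉ S →
      ¬ l ∣ n0 * D * (c * d) ∧ Hk X ξ l (a l) ∧ ∀ i ∈ s, ¬ (l : ℤ) ∣ (A i).det)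
    (hz : ∀ M, Ad M → Co (Hm (M * n0)) ρ (z M) ∧
      cl ρ (z M) = ∑ i ∈ s, w i • ZL Z ξ c d (M * n0 * D) (A i)) :
    ∃ y, Raw ρ S a Ad y ∧ ∀ M, Ad M → Cr (Hm M) (Hm (M * n0)) (fun _ => 1) (rr ρ) (z M) (y M) := by
  have p0 : ∀ M, Ad M → 0 < M * n0 * D := fun M h => by
    rw [mul_assoc]
    exact Nat.mul_pos (Nat.pos_of_ne_zero (gr.pos M h)) L0
  have cx : ∀ M, Ad M → ∀ i ∈ s, Cx X m Cu ξ N c d (M * n0 * D) (A i) := fun M h i b => by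
    rw [mul_assoc, mul_comm]
    exact (x i b).1.up (Nat.pos_of_ne_zero (gr.pos M h)) Vale.Agent.P014T.Nr.Cg.rfl
  have key : ∀ M q, Ad M → Ad (M * q) → D.Coprime q → ∃ T, Tv (Hm (M * n0)) (Hm (M * q * n0)) T ∧
      Tv (Hm (M * n0 * D)) (Hm (M * n0 * D * q)) T ∧ ∑ t ∈ T, sg ρ t (cl ρ (z (M * q))) =
        ∑ i ∈ s, w i • ∑ t ∈ T, sg ρ t (ZL Z ξ c d (M * n0 * D * q) (A i)) := fun M q h h' cop => by
    have e : M * q * n0 * D = M * n0 * D * q := by ring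
    have q0 := e ▸ p0 _ h'
    obtain ⟨T, t⟩ := ex_tv (Hm_open q0.ne') (Hm_le (dvd_mul_right _ q))
    refine ⟨T, mul_right_comm M n0 q ▸ tv_cop q0 cop t, t, ?_⟩
    rw [(hz _ h').2, e, sum_sw]
  refine raw (by rintro rfl; simp at L0) gr (fun M h => (hz M h).1) (fun M h => ?_)
    fun M l P φ h o hl lM fb => ?_
  · obtain ⟨T, t, t', e⟩ := key M pp h (gr.ad2 M h) oD
    refine ⟨T, t, ?_⟩
    rw [e, (hz M h).2]
    exact sum_congr rfl fun i b => by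
      rw [d2 R ξ N c d _ _ (cx M h i b) pp pp_prime (pd M h) pc (x i b).2 T t']
  · obtain ⟨h1, h2, h3⟩ := hS l o.1 hl
    have nl : ¬ l ∣ M * n0 * D := fun e => (o.1.dvd_mul.1 (mul_assoc M n0 D ▸ e)).elim lM
      fun e => h1 (e.mul_right _)
    obtain ⟨T, t, t', e⟩ := key M l h (gr.adl M l h o.1 hl lM)
      (o.1.coprime_iff_not_dvd.2 fun e => nl (e.mul_left _)).symm
    refine ⟨T, t, ?_⟩
    rw [e, (hz M h).2]
    exact sum_eu fun i b => dl R ξ N c d _ _ (cx M h i b) l (a l) φ o.1 nl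
      (o.1.coprime_iff_not_dvd.2 fun e => h1 (e.mul_left _)) (h3 i b) h2 (fb_cyc o fb nl) T t'

end Vale.Agent.P014U.Nr
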